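import Vale.Agent.P038.SN904.T2

/-! P038 (helper904). Arc-minimal counterexamples: the strict decrease (294's (G)), unweighted. -/

namespace Vale.Agent.P038.SN904

open Finset

variable {V : Type*} [Fintype V] [DecidableEq V]

/-- Closed out-neighbourhood of a set; `N v` is the closed out-neighbourhood of `v`. -/
def cl (N : V → Finset V) (S : Finset V) : Finset V := S.biUnion N

omit [Fintype V] in
lemma mem_cl {N : V → Finset V} {S : Finset V} {y : V} :
    y ∈ cl N S ↔ ∃ x ∈ S, y ∈ N x := Finset.mem_biUnion

/-- `N` is the closed out-neighbourhood map of an oriented graph. -/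
structure Ori (N : V → Finset V) : Prop where
  refl : ∀ v, v ∈ N v
  anti : ∀ a b, b ∈ N a → a ∈ N b → a = b

/-- A counterexample. -/
def CE (N : V → Finset V) : Prop :=
  Ori N ∧ ∀ v, ((cl N (N v)).card : ℤ) + 1 < 2 * (N v).card

/-- Number of arcs (plus the number of vertices). -/
def arcs (N : V → Finset V) : ℕ := ∑ v, (N v).card

/-- `c(S) = |N[S]| - |S|`. -/
def cc (N : V → Finset V) (S : Finset V) : ℤ := (cl N S).card - S.card

omit [Fintype V] in
lemma subset_cl {N : V → Finset V} (h : Ori N) (S : Finset V) : S ⊆ cl N S :=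
  fun x hx => mem_cl.2 ⟨x, hx, h.refl x⟩

omit [Fintype V] in
lemma cl_mono {N : V → Finset V} {S T : Finset V} (h : S ⊆ T) : cl N S ⊆ cl N T := by
  intro y hy
  obtain ⟨x, hx, hy⟩ := mem_cl.1 hy
  exact mem_cl.2 ⟨x, h hx, hy⟩

lemma subm_cc (N : V → Finset V) : Subm (cc N) := by
  intro A B
  have h1 : cl N (A ∪ B) = cl N A ∪ cl N B := by
    unfold cl; rw [Finset.union_biUnion]
  have h2 : cl N (A ∩ B) ⊆ cl N A ∩ cl N B :=
    Finset.subset_inter (cl_mono Finset.inter_subset_left) (cl_mono Finset.inter_subset_right)
  have h3 := Finset.card_le_card h2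
  have h4 := Finset.card_union_add_card_inter (cl N A) (cl N B)
  have h5 := Finset.card_union_add_card_inter A B
  unfold cc
  rw [h1]
  omega

theorem exists_min_CE (h : ∃ N : V → Finset V, CE N) :
    ∃ N : V → Finset V, CE N ∧ ∀ N' : V → Finset V, CE N' → arcs N ≤ arcs N' := by
  classical
  have hP : ∃ n, ∃ N : V → Finset V, CE N ∧ arcs N = n := by
    obtain ⟨N, hN⟩ := h
    exact ⟨_, N, hN, rfl⟩
  obtain ⟨N, hN, hn⟩ := Nat.find_spec hP
  refine ⟨N, hN, fun N' hN' => ?_⟩
  rw [hn]
  exact Nat.find_min' hP ⟨N', hN', rfl⟩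

theorem strictG {N : V → Finset V} (hCE : CE N)
    (hmin : ∀ N' : V → Finset V, CE N' → arcs N ≤ arcs N')
    (X : Finset V) (hX : ¬ cl N X ⊆ X) : cc N (cl N X) < cc N X := by
  classical
  by_contra hcon
  push Not at hcon
  obtain ⟨hO, hv⟩ := hCE
  set L := cl N X \ X with hL
  have hXL : cl N X = X ∪ L := by
    rw [hL]; exact (Finset.union_sdiff_of_subset (subset_cl hO X)).symm
  have hdXL : Disjoint X L := by rw [hL]; exact Finset.disjoint_sdiff
  set d : Finset V → ℤ := fun T => ((cl N T \ X).card : ℤ) - 2 * T.card with hd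
  obtain ⟨T0, hT0, hT0m⟩ := Finset.exists_min_image L.powerset d ⟨∅, by simp⟩
  have hdL : 0 ≤ d L := by
    have e1 : cl N (cl N X) = X ∪ (cl N L \ X) := by
      have : cl N (X ∪ L) = cl N X ∪ cl N L := by unfold cl; rw [Finset.union_biUnion]
      rw [hXL, this, hXL]
      have hLL := subset_cl hO L
      ext y
      simp only [Finset.mem_union, Finset.mem_sdiff]
      constructor
      · rintro ((h | h) | h)
        · exact Or.inl h
        · by_cases hy : y ∈ X
          · exact Or.inl hy
          · exact Or.inr ⟨hLL h, hy⟩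
        · by_cases hy : y ∈ X
          · exact Or.inl hy
          · exact Or.inr ⟨h, hy⟩
      · rintro (h | ⟨h, _⟩)
        · exact Or.inl (Or.inl h)
        · exact Or.inr h
    have e2 : (cl N (cl N X)).card = X.card + (cl N L \ X).card := by
      rw [e1, Finset.card_union_of_disjoint Finset.disjoint_sdiff]
    have e3 : (cl N X).card = X.card + L.card := by
      rw [hXL, Finset.card_union_of_disjoint hdXL]
    unfold cc at hcon
    rw [e2, e3] at hcon
    simp only [hd]
    push_cast at hcon
    linarith
  have hT : ∃ T, T ⊆ L ∧ T ≠ L ∧ ∀ T' ⊆ L, d T ≤ d T' := by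
    by_cases h : T0 = L
    · refine ⟨∅, Finset.empty_subset _, ?_, ?_⟩
      · intro h0
        apply hX
        intro y hy
        by_contra hyX
        have : y ∈ L := by rw [hL, Finset.mem_sdiff]; exact ⟨hy, hyX⟩
        rw [← h0] at this
        simp at this
      · intro T' hT'
        have h1 := hT0m T' (Finset.mem_powerset.2 hT')
        rw [h] at h1
        have h2 : d ∅ = 0 := by simp [hd, cl]
        linarith
    · exact ⟨T0, Finset.mem_powerset.1 hT0, h, fun T' hT' => hT0m T' (Finset.mem_powerset.2 hT')⟩
  obtain ⟨T, hTL, hTne, hTm⟩ := hT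
  set N' : V → Finset V := fun v => if v ∈ X then N v \ (L \ T) else N v with hN'
  have hN'pos : ∀ v, v ∈ X → N' v = N v \ (L \ T) := fun v hv => by simp only [hN', if_pos hv]
  have hN'neg : ∀ v, v ∉ X → N' v = N v := fun v hv => by simp only [hN', if_neg hv]
  have hsub : ∀ v, N' v ⊆ N v := by
    intro v
    by_cases h : v ∈ X
    · rw [hN'pos v h]; exact Finset.sdiff_subset
    · rw [hN'neg v h]
  have hCE' : CE N' := by
    refine ⟨⟨?_, ?_⟩, ?_⟩
    · intro v
      by_cases h : v ∈ X
      · rw [hN'pos v h, Finset.mem_sdiff]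
        refine ⟨hO.refl v, ?_⟩
        intro h2
        exact (Finset.disjoint_left.1 hdXL h) (Finset.mem_sdiff.1 h2).1
      · rw [hN'neg v h]; exact hO.refl v
    · intro a b h1 h2
      exact hO.anti a b (hsub a h1) (hsub b h2)
    · intro v
      by_cases h : v ∈ X
      · set Δ := N v ∩ (L \ T) with hΔ
        have hc1 : (N' v).card + Δ.card = (N v).card := by
          rw [hN'pos v h, hΔ]
          exact Finset.card_sdiff_add_card_inter _ _
        have hsubX : cl N' (N' v) ⊆ X ∪ cl N T := by
          intro y hy
          obtain ⟨x, hx, hyx⟩ := mem_cl.1 hy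
          rw [hN'pos v h, Finset.mem_sdiff] at hx
          have hxXL : x ∈ X ∪ L := by rw [← hXL]; exact mem_cl.2 ⟨v, h, hx.1⟩
          by_cases hxX : x ∈ X
          · rw [hN'pos x hxX, Finset.mem_sdiff] at hyx
            have hyXL : y ∈ X ∪ L := by rw [← hXL]; exact mem_cl.2 ⟨x, hxX, hyx.1⟩
            rcases Finset.mem_union.1 hyXL with hy1 | hy1
            · exact Finset.mem_union_left _ hy1
            · apply Finset.mem_union_right
              apply subset_cl hO T
              by_contra hyT
              exact hyx.2 (Finset.mem_sdiff.2 ⟨hy1, hyT⟩)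
          · have hxT : x ∈ T := by
              rcases Finset.mem_union.1 hxXL with hx1 | hx1
              · exact absurd hx1 hxX
              · by_contra hxT
                exact hx.2 (Finset.mem_sdiff.2 ⟨hx1, hxT⟩)
            rw [hN'neg x hxX] at hyx
            exact Finset.mem_union_right _ (mem_cl.2 ⟨x, hxT, hyx⟩)
        have hsub2 : cl N' (N' v) ⊆ cl N (N v) := by
          intro y hy
          obtain ⟨x, hx, hyx⟩ := mem_cl.1 hy
          exact mem_cl.2 ⟨x, hsub v hx, hsub x hyx⟩
        set R := cl N Δ \ (cl N T ∪ X) with hR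
        have hR2 : R ⊆ cl N (N v) :=
          Finset.sdiff_subset.trans (cl_mono Finset.inter_subset_left)
        have hdisj : Disjoint (cl N' (N' v)) R := by
          rw [Finset.disjoint_left]
          intro y hy hyR
          have := hsubX hy
          rw [hR, Finset.mem_sdiff] at hyR
          apply hyR.2
          rw [Finset.union_comm]; exact this
        have hc2 : (cl N' (N' v)).card + R.card ≤ (cl N (N v)).card := by
          rw [← Finset.card_union_of_disjoint hdisj]
          exact Finset.card_le_card (Finset.union_subset hsub2 hR2)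
        have hTΔ : T ∪ Δ ⊆ L := by
          apply Finset.union_subset hTL
          exact Finset.inter_subset_right.trans Finset.sdiff_subset
        have hm := hTm _ hTΔ
        have hc3 : (T ∪ Δ).card = T.card + Δ.card := by
          apply Finset.card_union_of_disjoint
          rw [Finset.disjoint_left]
          intro y hy hyD
          rw [hΔ, Finset.mem_inter, Finset.mem_sdiff] at hyD
          exact hyD.2.2 hy
        have hc4 : (cl N (T ∪ Δ) \ X).card ≤ (cl N T \ X).card + R.card := by
          have : cl N (T ∪ Δ) \ X ⊆ (cl N T \ X) ∪ R := by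
            intro y hy
            rw [Finset.mem_sdiff] at hy
            obtain ⟨x, hx, hyx⟩ := mem_cl.1 hy.1
            by_cases hyT : y ∈ cl N T
            · exact Finset.mem_union_left _ (Finset.mem_sdiff.2 ⟨hyT, hy.2⟩)
            · apply Finset.mem_union_right
              rw [hR, Finset.mem_sdiff]
              rcases Finset.mem_union.1 hx with hx1 | hx1
              · exact absurd (mem_cl.2 ⟨x, hx1, hyx⟩) hyT
              · refine ⟨mem_cl.2 ⟨x, hx1, hyx⟩, ?_⟩
                intro h2
                rcases Finset.mem_union.1 h2 with h3 | h3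
                · exact hyT h3
                · exact hy.2 h3
          exact (Finset.card_le_card this).trans (Finset.card_union_le _ _)
        have hvv := hv v
        simp only [hd] at hm
        rw [hc3] at hm
        push_cast at hm
        have hc1' : ((N' v).card : ℤ) + Δ.card = (N v).card := by exact_mod_cast hc1
        have hc2' : ((cl N' (N' v)).card : ℤ) + R.card ≤ (cl N (N v)).card := by
          exact_mod_cast hc2
        have hc4' : ((cl N (T ∪ Δ) \ X).card : ℤ) ≤ (cl N T \ X).card + R.card := by
          exact_mod_cast hc4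
        linarith
      · rw [hN'neg v h]
        have : cl N' (N v) ⊆ cl N (N v) := by
          intro y hy
          obtain ⟨x, hx, hyx⟩ := mem_cl.1 hy
          exact mem_cl.2 ⟨x, hx, hsub x hyx⟩
        have h1 := Finset.card_le_card this
        have h2 := hv v
        have h1' : ((cl N' (N v)).card : ℤ) ≤ (cl N (N v)).card := by exact_mod_cast h1
        linarith
  have hlt : arcs N' < arcs N := by
    obtain ⟨y, hyL, hyT⟩ := Finset.exists_of_ssubset (lt_of_le_of_ne hTL hTne)
    have hy2 : y ∈ cl N X := by rw [hL, Finset.mem_sdiff] at hyL; exact hyL.1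
    obtain ⟨x, hx, hyx⟩ := mem_cl.1 hy2
    unfold arcs
    apply Finset.sum_lt_sum
    · intro v _; exact Finset.card_le_card (hsub v)
    · refine ⟨x, Finset.mem_univ _, ?_⟩
      apply Finset.card_lt_card
      refine ⟨hsub x, ?_⟩
      intro hcontra
      have := hcontra hyx
      rw [hN'pos x hx, Finset.mem_sdiff] at this
      exact this.2 (Finset.mem_sdiff.2 ⟨hyL, hyT⟩)
  exact absurd (hmin N' hCE') (not_le.2 hlt)

end Vale.Agent.P038.SN904
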