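import Vale.Agent.P038.SN904.G

/-! P038 (helper904). Seymour's second neighbourhood conjecture: the double-family argument. -/

namespace Vale.Agent.P038.SN904

open Finset

variable {V : Type*} [Fintype V] [DecidableEq V]

/-- Outer pairs of families. -/
structure Feas (N B C : V → Finset V) : Prop where
  hB : ∀ a, N a ⊆ B a
  hC : ∀ a, N a ⊆ C a
  comp : ∀ a b, b ∈ B a → a ∈ C b → a = b

/-- cost of a pair of families -/
def oo (N B C : V → Finset V) : ℤ := ∑ a, (cc N (B a) + cc N (C a))

lemma cc_eq (N : V → Finset V) (S : Finset V) :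
    cc N S = ∑ b, ((if b ∈ cl N S then (1 : ℤ) else 0) - (if b ∈ S then (1 : ℤ) else 0)) := by
  rw [Finset.sum_sub_distrib]
  simp [cc]

lemma ite_not_eq {p q : Prop} [Decidable p] [Decidable q] (h : p ↔ ¬ q) :
    (if p then (1 : ℤ) else 0) = 1 - (if q then (1 : ℤ) else 0) := by
  by_cases hq : q
  · rw [if_neg (fun hp => h.1 hp hq), if_pos hq]; norm_num
  · rw [if_pos (h.2 hq), if_neg hq]; norm_num

lemma ite_add_le {p q : Prop} [Decidable p] [Decidable q] (h : ¬ (p ∧ q)) :
    (if p then (1 : ℤ) else 0) + (if q then (1 : ℤ) else 0) ≤ 1 := by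
  by_cases hp : p
  · by_cases hq : q
    · exact absurd ⟨hp, hq⟩ h
    · rw [if_pos hp, if_neg hq]; norm_num
  · rw [if_neg hp]
    split_ifs <;> norm_num

/-- A nonempty minimal closed set gives an in-neighbour inside. -/
lemma cyc {N : V → Finset V} (hout : ∀ v, ∃ u, u ≠ v ∧ u ∈ N v) [Nonempty V] :
    ∃ S : Finset V, S.Nonempty ∧ cl N S ⊆ S ∧
      (∀ S' : Finset V, S'.Nonempty → cl N S' ⊆ S' → S.card ≤ S'.card) ∧
      ∀ a ∈ S, ∃ y ∈ S, y ≠ a ∧ a ∈ N y := by
  classical
  obtain ⟨S, hS, hm⟩ := Finset.exists_min_image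
    ((Finset.univ : Finset (Finset V)).filter (fun S => S.Nonempty ∧ cl N S ⊆ S)) Finset.card
    ⟨Finset.univ, by
      rw [Finset.mem_filter]
      exact ⟨Finset.mem_univ _, Finset.univ_nonempty, Finset.subset_univ _⟩⟩
  rw [Finset.mem_filter] at hS
  have hm' : ∀ S' : Finset V, S'.Nonempty → cl N S' ⊆ S' → S.card ≤ S'.card := by
    intro S' h1 h2
    exact hm S' (by rw [Finset.mem_filter]; exact ⟨Finset.mem_univ _, h1, h2⟩)
  refine ⟨S, hS.2.1, hS.2.2, hm', ?_⟩
  intro a ha
  by_contra hcon
  push Not at hcon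
  have hne : (S.erase a).Nonempty := by
    obtain ⟨u, hu, huN⟩ := hout a
    exact ⟨u, Finset.mem_erase.2 ⟨hu, hS.2.2 (mem_cl.2 ⟨a, ha, huN⟩)⟩⟩
  have hcl : cl N (S.erase a) ⊆ S.erase a := by
    intro z hz
    obtain ⟨y, hy, hzy⟩ := mem_cl.1 hz
    rw [Finset.mem_erase] at hy
    rw [Finset.mem_erase]
    refine ⟨?_, hS.2.2 (mem_cl.2 ⟨y, hy.2, hzy⟩)⟩
    rintro rfl
    exact hcon y hy.2 hy.1 hzy
  have := hm' _ hne hcl
  have h2 := Finset.card_erase_lt_of_mem ha
  omega

theorem noCE [Nonempty V] {N : V → Finset V} (hO : Ori N)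
    (hG : ∀ X : Finset V, ¬ cl N X ⊆ X → cc N (cl N X) < cc N X)
    (hout : ∀ v, ∃ u, u ≠ v ∧ u ∈ N v) : False := by
  classical
  -- optimal outer pair
  obtain ⟨⟨B, C⟩, hBC, hmin⟩ := Finset.exists_min_image
    ((Finset.univ : Finset ((V → Finset V) × (V → Finset V))).filter
      (fun p => Feas N p.1 p.2)) (fun p => oo N p.1 p.2)
    ⟨(N, N), by
      rw [Finset.mem_filter]
      exact ⟨Finset.mem_univ _, ⟨fun a => le_rfl, fun a => le_rfl, hO.anti⟩⟩⟩
  rw [Finset.mem_filter] at hBC
  have hF : Feas N B C := hBC.2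
  have hmin' : ∀ B' C', Feas N B' C' → oo N B C ≤ oo N B' C' := by
    intro B' C' h
    exact hmin (B', C') (by rw [Finset.mem_filter]; exact ⟨Finset.mem_univ _, h⟩)
  clear hmin hBC
  set U : V → Finset V := fun a => Finset.univ.filter (fun b => b = a ∨ a ∉ C b) with hU
  set al : V → Finset V := fun z => Finset.univ.filter (fun s => z ∈ N s) with hal
  set X : V → Finset V := fun z => Finset.univ.filter (fun b => ∀ s ∈ al z, b ∈ B s) with hX
  set AU : V → Finset V := fun z => Finset.univ.filter (fun b => ∀ s ∈ al z, b ∈ U s) with hAU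
  set Y : V → Finset V := fun z => Finset.univ.filter (fun b => ∀ s ∈ al z, b ∈ C s) with hY
  have mU : ∀ a b, b ∈ U a ↔ (b = a ∨ a ∉ C b) := by intro a b; simp [hU]
  have mal : ∀ z s, s ∈ al z ↔ z ∈ N s := by intro z s; simp [hal]
  have mX : ∀ z b, b ∈ X z ↔ ∀ s ∈ al z, b ∈ B s := by intro z b; simp [hX]
  have mAU : ∀ z b, b ∈ AU z ↔ ∀ s ∈ al z, b ∈ U s := by intro z b; simp [hAU]
  have mY : ∀ z b, b ∈ Y z ↔ ∀ s ∈ al z, b ∈ C s := by intro z b; simp [hY]
  clear_value U al X AU Y
  have hselfB : ∀ a, a ∈ B a := fun a => hF.hB a (hO.refl a)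
  have hselfC : ∀ a, a ∈ C a := fun a => hF.hC a (hO.refl a)
  have hBU : ∀ a, B a ⊆ U a := by
    intro a b hb
    rw [mU]
    by_cases h : a ∈ C b
    · exact Or.inl (hF.comp a b hb h).symm
    · exact Or.inr h
  -- row optimality
  have opt : ∀ a S, B a ⊆ S → S ⊆ U a → cc N (B a) ≤ cc N S := by
    intro a S h1 h2
    have hF' : Feas N (Function.update B a S) C := by
      refine ⟨?_, hF.hC, ?_⟩
      · intro a'
        by_cases h : a' = a
        · subst h; rw [Function.update_self]; exact (hF.hB a').trans h1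
        · rw [Function.update_of_ne h]; exact hF.hB a'
      · intro a' b hb hc
        by_cases h : a' = a
        · subst h
          rw [Function.update_self] at hb
          rcases (mU _ _).1 (h2 hb) with h3 | h3
          · exact h3.symm
          · exact absurd hc h3
        · rw [Function.update_of_ne h] at hb
          exact hF.comp a' b hb hc
    have := hmin' _ _ hF'
    have hd : oo N (Function.update B a S) C - oo N B C = cc N S - cc N (B a) := by
      unfold oo
      rw [← Finset.sum_sub_distrib, Finset.sum_eq_single a]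
      · rw [Function.update_self]; ring
      · intro a' _ h
        rw [Function.update_of_ne h]; ring
      · intro h; exact absurd (Finset.mem_univ _) h
    linarith
  -- column optimality
  have opt2 : ∀ b (T : Finset V), (∀ a ∈ T, b ∉ B a ∧ a ∉ C b) →
      T.card ≤ (cl N T \ cl N (C b)).card := by
    intro b T hT
    have hF' : Feas N B (Function.update C b (C b ∪ T)) := by
      refine ⟨hF.hB, ?_, ?_⟩
      · intro a'
        by_cases h : a' = b
        · subst h; rw [Function.update_self]
          exact (hF.hC a').trans Finset.subset_union_left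
        · rw [Function.update_of_ne h]; exact hF.hC a'
      · intro a' b' hb hc
        by_cases h : b' = b
        · subst h
          rw [Function.update_self] at hc
          rcases Finset.mem_union.1 hc with h3 | h3
          · exact hF.comp a' b' hb h3
          · exact absurd hb (hT a' h3).1
        · rw [Function.update_of_ne h] at hc
          exact hF.comp a' b' hb hc
    have h0 := hmin' _ _ hF'
    have hd : oo N B (Function.update C b (C b ∪ T)) - oo N B C =
        cc N (C b ∪ T) - cc N (C b) := by
      unfold oo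
      rw [← Finset.sum_sub_distrib, Finset.sum_eq_single b]
      · rw [Function.update_self]; ring
      · intro a' _ h
        rw [Function.update_of_ne h]; ring
      · intro h; exact absurd (Finset.mem_univ _) h
    have hdis : Disjoint (C b) T := by
      rw [Finset.disjoint_left]
      intro y hy hyT
      exact (hT y hyT).2 hy
    have e1 : (C b ∪ T).card = (C b).card + T.card := Finset.card_union_of_disjoint hdis
    have e2 : cl N (C b ∪ T) = cl N (C b) ∪ (cl N T \ cl N (C b)) := by
      rw [Finset.union_sdiff_self_eq_union]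
      unfold cl; rw [Finset.union_biUnion]
    have e3 : (cl N (C b ∪ T)).card = (cl N (C b)).card + (cl N T \ cl N (C b)).card := by
      rw [e2, Finset.card_union_of_disjoint Finset.disjoint_sdiff]
    unfold cc at hd
    rw [e1, e3] at hd
    omega
  -- Hall injections
  have inj : ∀ b, ∃ φ : V → V, Set.InjOn φ {a | b ∈ U a ∧ b ∉ B a} ∧
      ∀ a, b ∈ U a → b ∉ B a → a ∈ al (φ a) ∧ b ∈ AU (φ a) := by
    intro b
    have hHall := (Finset.all_card_le_biUnion_card_iff_exists_injective
      (ι := {a : V // b ∈ U a ∧ b ∉ B a})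
      (fun a => Finset.univ.filter (fun z => (a : V) ∈ al z ∧ b ∈ AU z))).1 (by
        intro s
        set T : Finset V := s.map (Function.Embedding.subtype _) with hTdef
        have hTcard : T.card = s.card := by rw [hTdef, Finset.card_map]
        have hTmem : ∀ a ∈ T, b ∉ B a ∧ a ∉ C b := by
          intro a ha
          rw [hTdef, Finset.mem_map] at ha
          obtain ⟨⟨a', ha'⟩, _, rfl⟩ := ha
          refine ⟨ha'.2, ?_⟩
          rcases (mU _ _).1 ha'.1 with h3 | h3
          · exfalso
            apply ha'.2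
            rw [h3]; exact hselfB a'
          · exact h3
        have h1 := opt2 b T hTmem
        rw [hTcard] at h1
        refine h1.trans (Finset.card_le_card ?_)
        intro z hz
        rw [Finset.mem_sdiff] at hz
        obtain ⟨a, ha, hza⟩ := mem_cl.1 hz.1
        rw [hTdef, Finset.mem_map] at ha
        obtain ⟨a', ha', rfl⟩ := ha
        rw [Finset.mem_biUnion]
        refine ⟨a', ha', ?_⟩
        rw [Finset.mem_filter]
        refine ⟨Finset.mem_univ _, (mal _ _).2 hza, ?_⟩
        rw [mAU]
        intro t ht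
        rw [mal] at ht
        rw [mU]
        right
        intro htC
        exact hz.2 (mem_cl.2 ⟨t, htC, ht⟩))
    obtain ⟨f, hf, hf2⟩ := hHall
    refine ⟨fun a => if h : b ∈ U a ∧ b ∉ B a then f ⟨a, h⟩ else a, ?_, ?_⟩
    · intro a ha a' ha' haa
      have ha : b ∈ U a ∧ b ∉ B a := ha
      have ha' : b ∈ U a' ∧ b ∉ B a' := ha'
      simp only [dif_pos ha, dif_pos ha'] at haa
      have := hf haa
      exact congrArg Subtype.val this
    · intro a h1 h2
      have h := hf2 ⟨a, h1, h2⟩
      rw [Finset.mem_filter] at h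
      simp only [dif_pos (show b ∈ U a ∧ b ∉ B a from ⟨h1, h2⟩)]
      exact h.2
  have t2 := T2 (subm_cc N) B U X AU al hBU mX mAU opt inj
  -- one layer inequality
  have hptw : ∀ a b : V,
      ((if b ∈ cl N (AU a) then (1 : ℤ) else 0) - (if b ∈ AU a then (1 : ℤ) else 0)) +
      ((if a ∈ cl N (Y b) then (1 : ℤ) else 0) - (if a ∈ Y b then (1 : ℤ) else 0)) ≤
      ((if b ∈ cl N (U a) then (1 : ℤ) else 0) - (if b ∈ U a then (1 : ℤ) else 0)) +
      ((if a ∈ cl N (C b) then (1 : ℤ) else 0) - (if a ∈ C b then (1 : ℤ) else 0)) := by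
    intro a b
    have hAUself : ∀ a, a ∈ AU a := by
      intro a
      rw [mAU]
      intro s hs
      rw [mal] at hs
      rw [mU]
      by_cases h : s ∈ C a
      · exact Or.inl (hF.comp s a (hF.hB s hs) h).symm
      · exact Or.inr h
    have hYself : ∀ a, a ∈ Y a := by
      intro a
      rw [mY]
      intro s hs
      rw [mal] at hs
      exact hF.hC s hs
    by_cases hab : a = b
    · subst hab
      have h1 := hAUself a
      have h2 := hYself a
      have h3 : a ∈ U a := (mU _ _).2 (Or.inl rfl)
      have h4 := hselfC a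
      rw [if_pos h1, if_pos h2, if_pos h3, if_pos h4, if_pos (subset_cl hO _ h1),
        if_pos (subset_cl hO _ h2), if_pos (subset_cl hO _ h3), if_pos (subset_cl hO _ h4)]
    · have q1 : b ∈ cl N (U a) ↔ ¬ a ∈ Y b := by
        constructor
        · intro h hy
          obtain ⟨x, hx, hbx⟩ := mem_cl.1 h
          rw [mY] at hy
          have hx2 := hy x ((mal _ _).2 hbx)
          rcases (mU _ _).1 hx with h3 | h3
          · subst h3
            -- x = a, b ∈ N a; a ∈ C b
            have := hy b ((mal _ _).2 (hO.refl b))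
            exact hab (hF.comp x b (hF.hB x hbx) this)
          · exact h3 hx2
        · intro h
          rw [mY] at h
          push Not at h
          obtain ⟨x, hx, hxC⟩ := h
          rw [mal] at hx
          exact mem_cl.2 ⟨x, (mU _ _).2 (Or.inr hxC), hx⟩
      have q2 : a ∈ cl N (C b) ↔ ¬ b ∈ AU a := by
        constructor
        · intro h hy
          obtain ⟨s, hs, has⟩ := mem_cl.1 h
          rw [mAU] at hy
          rcases (mU _ _).1 (hy s ((mal _ _).2 has)) with h3 | h3
          · subst h3
            rcases (mU _ _).1 (hy a ((mal _ _).2 (hO.refl a))) with h4 | h4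
            · exact hab h4.symm
            · exact h4 (hF.hC _ has)
          · exact h3 hs
        · intro h
          rw [mAU] at h
          push Not at h
          obtain ⟨s, hs, hsU⟩ := h
          rw [mU] at hsU
          push Not at hsU
          rw [mal] at hs
          exact mem_cl.2 ⟨s, hsU.2, hs⟩
      have q3 : b ∈ U a ↔ ¬ a ∈ C b := by
        rw [mU]
        constructor
        · rintro (h | h)
          · exact absurd h.symm hab
          · exact h
        · exact Or.inr
      have q4 : ¬ (b ∈ cl N (AU a) ∧ a ∈ cl N (Y b)) := by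
        rintro ⟨h1, h2⟩
        obtain ⟨x, hx, hbx⟩ := mem_cl.1 h1
        obtain ⟨y, hy, hay⟩ := mem_cl.1 h2
        rw [mAU] at hx
        rw [mY] at hy
        have hxy := hx y ((mal _ _).2 hay)
        have hyx := hy x ((mal _ _).2 hbx)
        have hxy2 : x = y := by
          rcases (mU _ _).1 hxy with h3 | h3
          · exact h3
          · exact absurd hyx h3
        subst hxy2
        have hxa : x = a := by
          rcases (mU _ _).1 (hx a ((mal _ _).2 (hO.refl a))) with h3 | h3
          · exact h3
          · exact absurd (hF.hC x hay) h3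
        have hxb : x = b := by
          have h5 := hy b ((mal _ _).2 (hO.refl b))
          exact hF.comp x b (hF.hB x hbx) h5
        exact hab (hxa.symm.trans hxb)
      have i1 := ite_not_eq q1
      have i2 := ite_not_eq q2
      have i3 := ite_not_eq q3
      have i4 := ite_add_le q4
      linarith
  have hlay : ∑ a, cc N (AU a) + ∑ a, cc N (Y a) ≤ ∑ a, cc N (U a) + ∑ a, cc N (C a) := by
    have e1 : ∀ P Q : V → Finset V, ∑ a, cc N (P a) + ∑ a, cc N (Q a) =
        ∑ a, ∑ b, (((if b ∈ cl N (P a) then (1 : ℤ) else 0) - (if b ∈ P a then (1 : ℤ) else 0)) +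
        ((if a ∈ cl N (Q b) then (1 : ℤ) else 0) - (if a ∈ Q b then (1 : ℤ) else 0))) := by
      intro P Q
      have : ∑ a, cc N (Q a) = ∑ a, ∑ b,
          ((if a ∈ cl N (Q b) then (1 : ℤ) else 0) - (if a ∈ Q b then (1 : ℤ) else 0)) := by
        rw [Finset.sum_comm]
        apply Finset.sum_congr rfl
        intro b _
        exact cc_eq N (Q b)
      rw [this, ← Finset.sum_add_distrib]
      apply Finset.sum_congr rfl
      intro a _
      rw [cc_eq N (P a), ← Finset.sum_add_distrib]
    rw [e1, e1]
    apply Finset.sum_le_sum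
    intro a _
    apply Finset.sum_le_sum
    intro b _
    exact hptw a b
  -- the new pair
  have hselfX : ∀ a, a ∈ X a := by
    intro a
    rw [mX]
    intro s hs
    rw [mal] at hs
    exact hF.hB s hs
  have hselfY : ∀ a, a ∈ Y a := by
    intro a
    rw [mY]
    intro s hs
    rw [mal] at hs
    exact hF.hC s hs
  have hF2 : Feas N (fun a => cl N (X a)) (fun a => cl N (Y a)) := by
    refine ⟨?_, ?_, ?_⟩
    · intro a y hy
      exact mem_cl.2 ⟨a, hselfX a, hy⟩
    · intro a y hy
      exact mem_cl.2 ⟨a, hselfY a, hy⟩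
    · intro a b hb ha
      obtain ⟨x, hx, hbx⟩ := mem_cl.1 hb
      obtain ⟨y, hy, hay⟩ := mem_cl.1 ha
      rw [mX] at hx
      rw [mY] at hy
      have h1 := hx y ((mal _ _).2 hay)
      have h2 := hy x ((mal _ _).2 hbx)
      have h3 := hF.comp y x h1 h2
      subst h3
      have h4 := hx a ((mal _ _).2 (hO.refl a))
      have h5 := hF.comp a y h4 (hF.hC y hay)
      have h6 := hy b ((mal _ _).2 (hO.refl b))
      have h7 := hF.comp y b (hF.hB y hbx) h6
      exact h5.trans h7
  have hle := hmin' _ _ hF2
  have hsumle : ∑ a, (cc N (X a) + cc N (Y a)) ≤ oo N B C := by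
    unfold oo
    rw [Finset.sum_add_distrib, Finset.sum_add_distrib]
    rw [Finset.sum_sub_distrib, Finset.sum_sub_distrib] at t2
    linarith
  have hGle : ∀ S, cc N (cl N S) ≤ cc N S := by
    intro S
    by_cases h : cl N S ⊆ S
    · have : cl N S = S := Finset.Subset.antisymm h (subset_cl hO S)
      rw [this]
    · exact (hG S h).le
  have hoo2 : oo N (fun a => cl N (X a)) (fun a => cl N (Y a)) =
      ∑ a, (cc N (cl N (X a)) + cc N (cl N (Y a))) := rfl
  rw [hoo2] at hle
  have hclosed : ∀ a, cl N (X a) ⊆ X a := by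
    intro a
    by_contra h
    have hlt : ∑ a, (cc N (cl N (X a)) + cc N (cl N (Y a))) < ∑ a, (cc N (X a) + cc N (Y a)) := by
      apply Finset.sum_lt_sum
      · intro z _
        exact add_le_add (hGle _) (hGle _)
      · exact ⟨a, Finset.mem_univ _, add_lt_add_of_lt_of_le (hG _ h) (hGle _)⟩
    linarith
  obtain ⟨S, hS1, hS2, hS3, hS4⟩ := cyc hout
  obtain ⟨a, ha⟩ := hS1
  have hSX : S ⊆ X a := by
    have hne : (X a ∩ S).Nonempty := ⟨a, Finset.mem_inter.2 ⟨hselfX a, ha⟩⟩
    have hcl : cl N (X a ∩ S) ⊆ X a ∩ S := by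
      apply Finset.subset_inter
      · exact (cl_mono Finset.inter_subset_left).trans (hclosed a)
      · exact (cl_mono Finset.inter_subset_right).trans hS2
    have h1 := hS3 _ hne hcl
    have h2 := Finset.eq_of_subset_of_card_le (Finset.inter_subset_right (s₁ := X a) (s₂ := S)) h1
    rw [← h2]
    exact Finset.inter_subset_left
  obtain ⟨y, hyS, hya, hay⟩ := hS4 a ha
  have h1 : y ∈ cl N (X a) := subset_cl hO _ (hSX hyS)
  have h2 : a ∈ cl N (Y y) := mem_cl.2 ⟨y, hselfY y, hay⟩
  exact hya (hF2.comp a y h1 h2).symm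

/-- No counterexample in closed neighbourhood form. -/
theorem no_CE [Nonempty V] : ¬ ∃ N : V → Finset V, CE N := by
  intro h
  obtain ⟨N, hN, hmin⟩ := exists_min_CE h
  apply noCE hN.1 (strictG hN hmin)
  intro v
  by_contra hcon
  push Not at hcon
  have h1 := hN.2 v
  have h2 : N v = {v} := by
    ext u
    rw [Finset.mem_singleton]
    constructor
    · intro hu
      by_contra hne
      exact hcon u hne hu
    · rintro rfl; exact hN.1.refl u
  have h3 : (1 : ℤ) ≤ (cl N (N v)).card := by
    have : 1 ≤ (cl N (N v)).card := by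
      apply Finset.card_pos.2
      exact ⟨v, subset_cl hN.1 _ (hN.1.refl v)⟩
    exact_mod_cast this
  rw [h2] at h1 h3
  simp only [Finset.card_singleton] at h1
  push_cast at h1
  linarith

end Vale.Agent.P038.SN904
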