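import Mathlib

/-! P038 (helper904). A submodular exchange lemma (marginals of the monotone closure). -/

namespace Vale.Agent.P038.SN904

open Finset

variable {V : Type*} [Fintype V] [DecidableEq V]

/-- The minimum of `c` over the interval `[X, U]` of finite sets. -/
noncomputable def mn (c : Finset V → ℤ) (X U : Finset V) : ℤ :=
  if h : X ⊆ U then (Finset.Icc X U).inf' ⟨U, Finset.mem_Icc.2 ⟨h, le_rfl⟩⟩ c else 0

lemma mn_le {c : Finset V → ℤ} {X U Y : Finset V} (h1 : X ⊆ Y) (h2 : Y ⊆ U) :
    mn c X U ≤ c Y := by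
  unfold mn
  rw [dif_pos (h1.trans h2)]
  exact Finset.inf'_le _ (Finset.mem_Icc.2 ⟨h1, h2⟩)

lemma exists_mn {c : Finset V → ℤ} {X U : Finset V} (h : X ⊆ U) :
    ∃ Y, X ⊆ Y ∧ Y ⊆ U ∧ c Y = mn c X U := by
  unfold mn
  rw [dif_pos h]
  obtain ⟨Y, hY, hY2⟩ := Finset.exists_mem_eq_inf' (s := Finset.Icc X U)
    ⟨U, Finset.mem_Icc.2 ⟨h, le_rfl⟩⟩ c
  rw [Finset.mem_Icc] at hY
  exact ⟨Y, hY.1, hY.2, hY2.symm⟩

/-- Submodularity. -/
def Subm (c : Finset V → ℤ) : Prop := ∀ A B, c (A ∪ B) + c (A ∩ B) ≤ c A + c B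

lemma mono_marg {c : Finset V → ℤ} (hc : Subm c) {X U X' U' : Finset V} {b : V}
    (hX : X' ⊆ X) (hU : U' ⊆ U) (hXU : X ⊆ U) (hX'U' : X' ⊆ U') (hb : b ∈ U') :
    mn c (insert b X) U - mn c X U ≤ mn c (insert b X') U' - mn c X' U' := by
  obtain ⟨Y2, h1, h2, h3⟩ := exists_mn (c := c) hXU
  have hi : insert b X' ⊆ U' := Finset.insert_subset hb hX'U'
  obtain ⟨Y1, g1, g2, g3⟩ := exists_mn (c := c) hi
  have e1 : mn c (insert b X) U ≤ c (Y1 ∪ Y2) := by
    apply mn_le
    · apply Finset.insert_subset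
      · exact Finset.mem_union_left _ (g1 (Finset.mem_insert_self _ _))
      · exact h1.trans Finset.subset_union_right
    · exact Finset.union_subset (g2.trans hU) h2
  have e2 : mn c X' U' ≤ c (Y1 ∩ Y2) := by
    apply mn_le
    · apply Finset.subset_inter
      · exact (Finset.subset_insert _ _).trans g1
      · exact hX.trans h1
    · exact Finset.inter_subset_left.trans g2
  have e3 := hc Y1 Y2
  linarith

lemma mn_mono {c : Finset V → ℤ} {X X2 U : Finset V} (h : X ⊆ X2) (h2 : X2 ⊆ U) :
    mn c X U ≤ mn c X2 U := by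
  obtain ⟨Y, g1, g2, g3⟩ := exists_mn (c := c) h2
  rw [← g3]
  exact mn_le (h.trans g1) g2

lemma opt_inter {c : Finset V → ℤ} (hc : Subm c) (L U : V → Finset V)
    (opt : ∀ a S, L a ⊆ S → S ⊆ U a → c (L a) ≤ c S)
    (al : Finset V) (S : Finset V) (hS : ∀ s ∈ al, S ⊆ U s) (hLU : ∀ a, L a ⊆ U a) :
    c (S.filter (fun b => ∀ s ∈ al, b ∈ L s)) ≤ c S := by
  classical
  induction al using Finset.induction_on with
  | empty => simp
  | insert a J ha ih =>
    have ih' := ih (fun s hs => hS s (Finset.mem_insert_of_mem hs))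
    set S' := S.filter (fun b => ∀ s ∈ J, b ∈ L s) with hS'
    have e : S.filter (fun b => ∀ s ∈ insert a J, b ∈ L s) = S' ∩ L a := by
      ext b
      simp only [Finset.mem_filter, Finset.mem_inter, Finset.mem_insert, hS']
      constructor
      · rintro ⟨h1, h2⟩
        exact ⟨⟨h1, fun s hs => h2 s (Or.inr hs)⟩, h2 a (Or.inl rfl)⟩
      · rintro ⟨⟨h1, h2⟩, h3⟩
        refine ⟨h1, ?_⟩
        rintro s (rfl | hs)
        · exact h3
        · exact h2 s hs
    rw [e]
    have hsub := hc S' (L a)
    have hu : c (L a) ≤ c (S' ∪ L a) := by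
      apply opt a _ Finset.subset_union_right
      apply Finset.union_subset _ (hLU a)
      exact (Finset.filter_subset _ _).trans (hS a (Finset.mem_insert_self _ _))
    linarith

/-- The exchange lemma T2. -/
theorem T2 {c : Finset V → ℤ} (hc : Subm c) (L U AL AU al : V → Finset V)
    (hLU : ∀ a, L a ⊆ U a)
    (hAL : ∀ z b, b ∈ AL z ↔ ∀ s ∈ al z, b ∈ L s)
    (hAU : ∀ z b, b ∈ AU z ↔ ∀ s ∈ al z, b ∈ U s)
    (opt : ∀ a S, L a ⊆ S → S ⊆ U a → c (L a) ≤ c S)
    (inj : ∀ b, ∃ φ : V → V, Set.InjOn φ {a | b ∈ U a ∧ b ∉ L a} ∧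
      ∀ a, b ∈ U a → b ∉ L a → a ∈ al (φ a) ∧ b ∈ AU (φ a)) :
    ∑ a, (c (U a) - c (L a)) ≤ ∑ z, (c (AU z) - c (AL z)) := by
  classical
  have hALU : ∀ z, AL z ⊆ AU z := by
    intro z b hb
    rw [hAL] at hb
    rw [hAU]
    exact fun s hs => hLU s (hb s hs)
  have key : ∀ I : Finset V,
      ∑ a, (mn c (L a ∪ (I ∩ U a)) (U a) - mn c (L a) (U a)) ≤
      ∑ z, (mn c (AL z ∪ (I ∩ AU z)) (AU z) - mn c (AL z) (AU z)) := by
    intro I
    induction I using Finset.induction_on with
    | empty => simp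
    | insert b I hbI ih =>
      obtain ⟨φ, hφ, hφ2⟩ := inj b
      set iL : V → ℤ := fun a => mn c (L a ∪ (insert b I ∩ U a)) (U a) -
        mn c (L a ∪ (I ∩ U a)) (U a) with hiL
      set iA : V → ℤ := fun z => mn c (AL z ∪ (insert b I ∩ AU z)) (AU z) -
        mn c (AL z ∪ (I ∩ AU z)) (AU z) with hiA
      have hiA0 : ∀ z, 0 ≤ iA z := by
        intro z
        have : mn c (AL z ∪ (I ∩ AU z)) (AU z) ≤ mn c (AL z ∪ (insert b I ∩ AU z)) (AU z) := by
          apply mn_mono
          · apply Finset.union_subset_union le_rfl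
            exact Finset.inter_subset_inter (Finset.subset_insert _ _) le_rfl
          · exact Finset.union_subset (hALU z) Finset.inter_subset_right
        simp only [hiA]; linarith
      have hiL0 : ∀ a, ¬ (b ∈ U a ∧ b ∉ L a) → iL a = 0 := by
        intro a ha
        have : L a ∪ (insert b I ∩ U a) = L a ∪ (I ∩ U a) := by
          ext y
          simp only [Finset.mem_union, Finset.mem_inter, Finset.mem_insert]
          constructor
          · rintro (h | ⟨h1 | h1, h2⟩)
            · exact Or.inl h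
            · subst h1
              by_contra hcon
              exact ha ⟨h2, fun h => hcon (Or.inl h)⟩
            · exact Or.inr ⟨h1, h2⟩
          · rintro (h | ⟨h1, h2⟩)
            · exact Or.inl h
            · exact Or.inr ⟨Or.inr h1, h2⟩
        simp only [hiL, this, sub_self]
      have hstep : ∀ a, b ∈ U a → b ∉ L a → iL a ≤ iA (φ a) := by
        intro a hU hL
        obtain ⟨h1, h2⟩ := hφ2 a hU hL
        have hAsub : AL (φ a) ⊆ L a := fun y hy => (hAL _ _).1 hy a h1
        have hUsub : AU (φ a) ⊆ U a := fun y hy => (hAU _ _).1 hy a h1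
        have e1 : L a ∪ (insert b I ∩ U a) = insert b (L a ∪ (I ∩ U a)) := by
          ext y
          simp only [Finset.mem_union, Finset.mem_inter, Finset.mem_insert]
          constructor
          · rintro (h | ⟨h1 | h1, h2⟩)
            · exact Or.inr (Or.inl h)
            · exact Or.inl h1
            · exact Or.inr (Or.inr ⟨h1, h2⟩)
          · rintro (h | h | ⟨h1, h2⟩)
            · subst h; exact Or.inr ⟨Or.inl rfl, hU⟩
            · exact Or.inl h
            · exact Or.inr ⟨Or.inr h1, h2⟩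
        have e2 : AL (φ a) ∪ (insert b I ∩ AU (φ a)) =
            insert b (AL (φ a) ∪ (I ∩ AU (φ a))) := by
          ext y
          simp only [Finset.mem_union, Finset.mem_inter, Finset.mem_insert]
          constructor
          · rintro (h | ⟨h1 | h1, h2⟩)
            · exact Or.inr (Or.inl h)
            · exact Or.inl h1
            · exact Or.inr (Or.inr ⟨h1, h2⟩)
          · rintro (h | h | ⟨h1, h3⟩)
            · subst h; exact Or.inr ⟨Or.inl rfl, h2⟩
            · exact Or.inl h
            · exact Or.inr ⟨Or.inr h1, h3⟩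
        simp only [hiL, hiA]
        rw [e1, e2]
        apply mono_marg hc
        · exact Finset.union_subset_union hAsub (Finset.inter_subset_inter le_rfl hUsub)
        · exact hUsub
        · exact Finset.union_subset (hLU a) Finset.inter_subset_right
        · exact Finset.union_subset (hALU _) Finset.inter_subset_right
        · exact h2
      have hsum : ∑ a, iL a ≤ ∑ z, iA z := by
        set T : Finset V := Finset.univ.filter (fun a => b ∈ U a ∧ b ∉ L a) with hT
        have s1 : ∑ a, iL a = ∑ a ∈ T, iL a := by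
          rw [hT, Finset.sum_filter]
          apply Finset.sum_congr rfl
          intro a _
          by_cases ha : b ∈ U a ∧ b ∉ L a
          · rw [if_pos ha]
          · rw [if_neg ha, hiL0 a ha]
        have s2 : ∑ a ∈ T, iL a ≤ ∑ a ∈ T, iA (φ a) := by
          apply Finset.sum_le_sum
          intro a ha
          rw [hT, Finset.mem_filter] at ha
          exact hstep a ha.2.1 ha.2.2
        have s3 : ∑ a ∈ T, iA (φ a) = ∑ z ∈ T.image φ, iA z := by
          rw [Finset.sum_image]
          intro x hx y hy hxy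
          apply hφ _ _ hxy
          · have := hx; rw [hT] at this; simpa using this
          · have := hy; rw [hT] at this; simpa using this
        have s4 : ∑ z ∈ T.image φ, iA z ≤ ∑ z, iA z :=
          Finset.sum_le_sum_of_subset_of_nonneg (Finset.subset_univ _) (fun z _ _ => hiA0 z)
        linarith
      have f1 : ∑ a, (mn c (L a ∪ (insert b I ∩ U a)) (U a) - mn c (L a) (U a)) =
          ∑ a, iL a + ∑ a, (mn c (L a ∪ (I ∩ U a)) (U a) - mn c (L a) (U a)) := by
        rw [← Finset.sum_add_distrib]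
        apply Finset.sum_congr rfl
        intro a _
        simp only [hiL]; ring
      have f2 : ∑ z, (mn c (AL z ∪ (insert b I ∩ AU z)) (AU z) - mn c (AL z) (AU z)) =
          ∑ z, iA z + ∑ z, (mn c (AL z ∪ (I ∩ AU z)) (AU z) - mn c (AL z) (AU z)) := by
        rw [← Finset.sum_add_distrib]
        apply Finset.sum_congr rfl
        intro a _
        simp only [hiA]; ring
      rw [f1, f2]
      linarith
  have hk := key Finset.univ
  have c1 : ∀ a, c (U a) - c (L a) ≤
      mn c (L a ∪ (Finset.univ ∩ U a)) (U a) - mn c (L a) (U a) := by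
    intro a
    have e : L a ∪ (Finset.univ ∩ U a) = U a := by
      rw [Finset.univ_inter]; exact Finset.union_eq_right.2 (hLU a)
    rw [e]
    obtain ⟨Y, g1, g2, g3⟩ := exists_mn (c := c) (le_refl (U a))
    have : Y = U a := Finset.Subset.antisymm g2 g1
    rw [← g3, this]
    have := mn_le (c := c) (le_refl (L a)) (hLU a)
    linarith
  have c2 : ∀ z, mn c (AL z ∪ (Finset.univ ∩ AU z)) (AU z) - mn c (AL z) (AU z) ≤
      c (AU z) - c (AL z) := by
    intro z
    have e : AL z ∪ (Finset.univ ∩ AU z) = AU z := by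
      rw [Finset.univ_inter]; exact Finset.union_eq_right.2 (hALU z)
    rw [e]
    obtain ⟨Y, g1, g2, g3⟩ := exists_mn (c := c) (hALU z)
    have h1 := mn_le (c := c) (le_refl (AU z)) (le_refl (AU z))
    have h2 := opt_inter hc L U opt (al z) Y
      (fun s hs y hy => (hAU z y).1 (g2 hy) s hs) hLU
    have h3 : Y.filter (fun b => ∀ s ∈ al z, b ∈ L s) = AL z := by
      ext y
      rw [Finset.mem_filter, ← hAL]
      exact ⟨fun h => h.2, fun h => ⟨g1 h, h⟩⟩
    rw [h3] at h2
    linarith
  calc ∑ a, (c (U a) - c (L a)) ≤ _ := Finset.sum_le_sum (fun a _ => c1 a)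
    _ ≤ _ := hk
    _ ≤ _ := Finset.sum_le_sum (fun z _ => c2 z)

end Vale.Agent.P038.SN904
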